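import Vale.Agent.P329.H409.Near

/-!
Generalized star height at most one on words in which the values of the prefixes recur steadily.
-/

namespace Vale.Agent.Results.P329.SteadyScales

open Vale.Agent.P329

/-- the values of the nonempty beginnings of `g`; `φ` maps letters to elements of a group -/
def Values {α G : Type} [Group G] (φ : α → G) (g : List α) : Set G :=
  {v | ∃ q, 0 < q ∧ q ≤ g.length ∧ v = ((g.take q).map φ).prod}

/-- `g` is `N`-steady: each value of a nonempty beginning of `g` is taken in every window of `N`
consecutive positions of `g` -/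
def Steady {α G : Type} [Group G] (φ : α → G) (N : ℕ) (g : List α) : Prop :=
  ∀ q, 0 < q → q ≤ g.length → ∀ t, t + N ≤ g.length →
    ∃ q', t < q' ∧ q' ≤ t + N ∧ ((g.take q').map φ).prod = ((g.take q).map φ).prod

/-- `u` is clear for the scales `L 0 < L 1 < ...`: let `g` be a factor of `u` which is
`L k`-steady for some `k` with `k + 1 < |G|`, but not together with the letter before or with the
letter after it, and let `g` be nearly long: of length at least `L (k + 1)`, but less than
`L (k + 1) + ρ * L k`; then `g` takes as many values as `u` -/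
def Clear {α G : Type} [Group G] (φ : α → G) (L : ℕ → ℕ) (ρ : ℕ) (u : List α) : Prop :=
  ∀ k, k + 1 < Nat.card G → ∀ c g d, (c :: g) ++ [d] <:+: u →
    (Steady φ (L k) g ∧ ¬ Steady φ (L k) (c :: g) ∧ ¬ Steady φ (L k) (g ++ [d]) ∧
      L (k + 1) ≤ g.length ∧ g.length < L (k + 1) + ρ * L k) →
    (Values φ g).ncard = (Values φ u).ncard

/-- `q` is a place of `g`: the `2 * m` letters before `q` map the set of all states onto `I` -/
def Place {α : Type} {n : ℕ} (A : DFA α (Fin n)) (I : Set (Fin n)) (m : ℕ) (g : List α)
    (q : ℕ) : Prop :=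
  2 * m ≤ q ∧ q ≤ g.length ∧
    Set.range (fun s => A.evalFrom s ((g.take q).drop (q - 2 * m))) = I

/-- `q` is a place of the class of `e`: the rest of `g` after `q` and the rest of `g` after `e`
act in the same way on `I` -/
def Same {α : Type} {n : ℕ} (A : DFA α (Fin n)) (I : Set (Fin n)) (m : ℕ) (g : List α)
    (e q : ℕ) : Prop :=
  Place A I m g q ∧ ∀ s ∈ I, A.evalFrom s (g.drop q) = A.evalFrom s (g.drop e)

/-- `g` is a zone for the set `B` of words: for some `N` and `K` with `0 < N`, `2 * m ≤ N ≤ K` and
`K + ρ * N ≤ |g|`, the word `g` and its factors of length `m` have rank `|I|`, the last `K` letters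
of `g` contain a word of `B`, there is a place among the last `K` positions of `g`, and for each
such place `e` there is a place of the class of `e` in every window of `N` consecutive positions,
and no word of `B` lies between two consecutive places of the class of `e` -/
def Zone {α : Type} {n : ℕ} (A : DFA α (Fin n)) (I : Set (Fin n)) (m : ℕ) (B : Set (List α))
    (ρ : ℕ) (g : List α) : Prop :=
  ∃ N K : ℕ, 0 < N ∧ 2 * m ≤ N ∧ N ≤ K ∧ K + ρ * N ≤ g.length ∧
    (∀ x : List α, x <:+: g → x.length = m ∨ x = g →
      (Set.range fun s => A.evalFrom s x).ncard = I.ncard) ∧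
    (∃ b ∈ B, b <:+: g.drop (g.length - K)) ∧
    (∃ e, g.length < e + K ∧ Place A I m g e) ∧
    ∀ e, g.length < e + K → Place A I m g e →
      (∀ t, t + N ≤ g.length → ∃ q, t < q ∧ q ≤ t + N ∧ Same A I m g e q) ∧
      ∀ q s, q < s → Same A I m g e q → Same A I m g e s →
        (∀ t, q < t → t < s → ¬ Same A I m g e t) →
        ¬ ∃ b ∈ B, b <:+: (g.take s).drop q

/-- Let `G` be a finite group.
(1) There is `ρ` such that for every finite alphabet, every map `φ` from letters to `G` and all
`S`, `N > 0`, `C` the words `w` with value in `S` in which every factor of length `C` contains an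
`N`-steady word of length `ρ * N` form a language of generalized star height at most one; and every
word of length `ρ ^ |G|` contains a `ρ ^ k`-steady word of length `ρ ^ (k + 1)` for some `k < |G|`.
(2) All scales at once: there are `ρ` and `κ` such that for every finite alphabet, all `φ`, `S`,
`C` and every strictly increasing sequence `L` with `L 0 > 0` the words with value in `S` in which
every factor of length `C` contains a clear word of length `κ * L (|G| - 1)` form a language of
generalized star height at most one; and every word of length `L (|G| - 1)` takes all values of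
`G` or contains an `L k`-steady word of length `L (k + 1)` for some `k` with `k + 1 < |G|`.
(3) For every `n` there is `ρ` such that for every automaton with `n` states over a finite
alphabet, every set `I` of states, all `m`, `C` and every set `B` of words the accepted words in
which every factor of length `C` contains a zone form a language of generalized star height at
most one. -/
theorem result :
    (∀ (G : Type) [Group G] [Finite G], ∃ ρ : ℕ,
      (∀ (α : Type) [Finite α] (φ : α → G) (S : Set G) (N C : ℕ), 0 < N →
        ∃ e : GRE α, e.height ≤ 1 ∧ e.lang = {w : List α | (w.map φ).prod ∈ S ∧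
          ∀ x : List α, x <:+: w → x.length = C →
            ∃ g, (g.length = ρ * N ∧ Steady φ N g) ∧ g <:+: x}) ∧
      (∀ (α : Type) (φ : α → G) (w : List α), w.length = ρ ^ Nat.card G →
        ∃ k < Nat.card G, ∃ g, g <:+: w ∧ g.length = ρ ^ (k + 1) ∧ Steady φ (ρ ^ k) g)) ∧
    (∀ (G : Type) [Group G] [Finite G], ∃ ρ κ : ℕ,
      (∀ (α : Type) [Finite α] (φ : α → G) (S : Set G) (L : ℕ → ℕ) (C : ℕ), 0 < L 0 →
        StrictMono L → ∃ e : GRE α, e.height ≤ 1 ∧ e.lang = {w : List α | (w.map φ).prod ∈ S ∧
          ∀ x : List α, x <:+: w → x.length = C →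
            ∃ u, (u.length = κ * L (Nat.card G - 1) ∧ Clear φ L ρ u) ∧ u <:+: x}) ∧
      (∀ (α : Type) (φ : α → G) (L : ℕ → ℕ), 0 < L 0 → StrictMono L → ∀ w : List α,
        w.length = L (Nat.card G - 1) → Values φ w = Set.univ ∨
          ∃ k, k + 1 < Nat.card G ∧ ∃ g, g <:+: w ∧ g.length = L (k + 1) ∧
            Steady φ (L k) g)) ∧
    (∀ n : ℕ, ∃ ρ : ℕ, ∀ (α : Type) [Finite α] (A : DFA α (Fin n)) (I : Set (Fin n)) (m C : ℕ)
      (B : Set (List α)), ∃ e : GRE α, e.height ≤ 1 ∧ e.lang = {w : List α | w ∈ A.accepts ∧
        ∀ x : List α, x <:+: w → x.length = C → ∃ g, Zone A I m B ρ g ∧ g <:+: x}) := by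
  refine ⟨?_, ?_, ?_⟩
  · intro G _ _
    obtain ⟨ρ, h1, h2⟩ := H409.scale_SH G
    exact ⟨ρ, h1, h2⟩
  · intro G _ _
    obtain ⟨ρ, κ, h1⟩ := H409.group_SH G
    refine ⟨ρ, κ, h1, fun α φ L h0 hL w hw => H409.values_cover φ L h0 hL w hw⟩
  · intro n
    obtain ⟨ρ, h1⟩ := H409.zone_SH n
    exact ⟨ρ, h1⟩

end Vale.Agent.Results.P329.SteadyScales
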